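import Vale.Agent.P014T.Ki.Wp
import Vale.Agent.P014T.Bt.Defs

/-!
# P014T, block CPT: the local pairing between points and cocycles (helper16)
-/

set_option autoImplicit false
set_option linter.all false

open scoped Classical

noncomputable section

namespace Vale.Agent.P014T.Cp

open Vale.Agent.P022 (Qb GQ)
open Vale.Agent.P004S.Ga (K O d2 d3 Z2 B2)
open Vale.Agent.P004S.Aq
open Vale.Agent.P004F.Rc (mq mq_eq mq_zero b2_add b2_neg b2_congr b2_zero)
open Vale.Agent.P004M.TE (Pt ga ga_mul ga_one ev_ga)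
open Ki (Pr tor tor_map tor_neg tor_add tor_up fx_up)
open Bt (dd Zl Km dd_apply)
open Wm (Fx)

variable {A B : ℤ}

/-- cocycles of level `n` on `D` -/
structure Zn (D : Subgroup GQ) (n : ℕ) (y : GQ → Pt A B) : Prop where
  lc : IsLocallyConstant fun g : D => y g
  co : ∀ g ∈ D, ∀ h ∈ D, y (g * h) = y g + ga g (y h)
  tr : ∀ g ∈ D, 2 ^ n • y g = 0

/-- the cup product at level `n` -/
def cp (w : ℕ → Pt A B → Pt A B → K) (n : ℕ) (a b : GQ → Pt A B) (g h : GQ) : K :=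
  w n (a g) (ga g (b h))

/-- invariants -/
structure Iv (D : Subgroup GQ) (ι : (GQ → GQ → K) →+ K ⧸ O) : Prop where
  b2 : ∀ z, B2 cy D z → ι z = 0
  iff : ∀ z, Z2 cy D z → ι z = 0 → B2 cy D z

variable {w : ℕ → Pt A B → Pt A B → K} {D : Subgroup GQ} {ι : (GQ → GQ → K) →+ K ⧸ O} {n m : ℕ}
  {a a' b b' y : GQ → Pt A B} {x x' t : Pt A B}

theorem Iv.congr (I : Iv D ι) {z z' : GQ → GQ → K}
    (e : ∀ g ∈ D, ∀ h ∈ D, mq (z g h) = mq (z' g h)) : ι z = ι z' := by
  rw [← sub_eq_zero, ← map_sub]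
  exact I.b2 _ (b2_zero fun g hg h hh => mq_eq.1 (e g hg h hh))

theorem Iv.eq (I : Iv D ι) {z z' : GQ → GQ → K} (e : B2 cy D fun g h => z g h - z' g h) :
    ι z = ι z' := by
  rw [← sub_eq_zero, ← map_sub]
  exact I.b2 _ e

theorem mem_Zl : y ∈ Zl A B D ↔ ∃ n, Zn D n y :=
  ⟨fun ⟨p, q, n, r⟩ => ⟨n, p, q, r⟩, fun ⟨n, p, q, r⟩ => ⟨p, q, n, r⟩⟩

theorem Zn.mem (h : Zn D n y) : y ∈ Zl A B D := mem_Zl.2 ⟨n, h⟩

theorem Zn.of (h : y ∈ Zl A B D) (t : ∀ g ∈ D, 2 ^ n • y g = 0) : Zn D n y := ⟨h.1, h.2.1, t⟩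

theorem Zn.up (h : Zn D n y) (c : ℕ) : Zn D (n + c) y :=
  ⟨h.lc, h.co, fun g m => tor_up (h.tr g m) c⟩

theorem Zn.add (h : Zn D n a) (h' : Zn D n b) : Zn D n (a + b) :=
  .of (add_mem h.mem h'.mem) fun g m => tor_add (h.tr g m) (h'.tr g m)

theorem Zn.neg (h : Zn D n a) : Zn D n (-a) := .of (neg_mem h.mem) fun g m => tor_neg (h.tr g m)

theorem Zn.sub (h : Zn D n a) (h' : Zn D n b) : Zn D n (a - b) :=
  (sub_eq_add_neg a b).symm ▸ h.add h'.neg

theorem Zn.two (h : Zn D (n + 1) a) : Zn D n (2 • a) :=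
  .of (nsmul_mem h.mem 2) fun g m => by rw [Pi.smul_apply, ← mul_smul, ← pow_succ, h.tr g m]

theorem Zn.mono (h : Zn D n a) {D' : Subgroup GQ} (e : D' ≤ D) : Zn D' n a :=
  ⟨h.lc.comp_continuous (continuous_inclusion e), fun g p j q => h.co g (e p) j (e q),
    fun g p => h.tr g (e p)⟩

theorem lc_ga (x : Pt A B) : IsLocallyConstant fun g => ga g x :=
  (IsLocallyConstant.iff_eventually_eq _).2 fun g => ev_ga g x

theorem zn_dd (h : 2 ^ n • x ∈ Fx A B D) : Zn D n (dd A B x) :=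
  ⟨((lc_ga x).comp_continuous continuous_subtype_val).comp fun z => z - x,
    fun g _ j _ => by simp only [dd_apply, ga_mul, map_sub]; abel, fun g m => tor h m⟩

/-- local constancy of `(g, h) ↦ g (b h)` -/
theorem lc_act {X : Type} [TopologicalSpace X] {f : X → GQ} {b : X → Pt A B} (hf : Continuous f)
    (hb : IsLocallyConstant b) : IsLocallyConstant fun x => ga (f x) (b x) :=
  (IsLocallyConstant.iff_eventually_eq _).2 fun x => by
    filter_upwards [hb.eventually_eq x, hf.continuousAt.eventually (ev_ga (f x) (b x))] with y p q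
    rw [p, q]

theorem con1 {F : GQ → K} (h : IsLocallyConstant fun g : D => F g) : ContinuousOn F D :=
  continuousOn_iff_continuous_restrict.2 h.continuous

theorem con2 {F : GQ → GQ → K} (h : IsLocallyConstant fun p : D × D => F p.1 p.2) :
    ContinuousOn (fun p : GQ × GQ => F p.1 p.2) ((D : Set GQ) ×ˢ (D : Set GQ)) :=
  continuousOn_iff_continuous_restrict.2 (h.continuous.comp
    (f := fun p : ((D : Set GQ) ×ˢ (D : Set GQ) : Set _) => ((⟨p.1.1, p.2.1⟩, ⟨p.1.2, p.2.2⟩) : D × D))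
    (by fun_prop))

theorem lc_cp (p : IsLocallyConstant fun g : D => a g) (q : IsLocallyConstant fun g : D => b g) :
    IsLocallyConstant fun z : D × D => cp w n a b z.1 z.2 :=
  ((p.comp_continuous continuous_fst).prodMk (lc_act (f := fun z : D × D => z.1) (by fun_prop)
    (q.comp_continuous continuous_snd))).comp fun z => w n z.1 z.2

section
variable (H : Pr (M := Pt A B) ga w)
include H

theorem cp_z2 (p : Zn D n a) (q : Zn D n b) : Z2 cy D (cp w n a b) := by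
  refine ⟨con2 (lc_cp p.lc q.lc), fun g hg h hh k hk => mq_zero.1 ?_⟩
  simp only [d3, cp, map_add mq, map_sub mq]
  rw [H.act g (p.tr h hh) (tor_map (q.tr k hk) h), p.co g hg h hh, q.co h hh k hk, map_add (ga g),
    ga_mul, H.addl (p.tr g hg) (tor_map (p.tr h hh) g) (tor_map (tor_map (q.tr k hk) h) g),
    H.addr (p.tr g hg) (tor_map (q.tr h hh) g) (tor_map (tor_map (q.tr k hk) h) g)]
  abel

theorem cp_cobl (p : 2 ^ n • t = 0) (q : Zn D n b) : B2 cy D (cp w n (dd A B t) b) := by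
  refine ⟨fun h => w n t (b h), con1 (q.lc.comp _), fun g hg h hh => mq_eq.1 ?_⟩
  simp only [d2, cp, dd_apply, map_add mq, map_sub mq]
  rw [H.act g p (q.tr h hh), q.co g hg h hh, H.addr p (q.tr g hg) (tor_map (q.tr h hh) g),
    sub_eq_add_neg (ga g t), H.addl (tor_map p g) (tor_neg p) (tor_map (q.tr h hh) g),
    H.negl p (tor_map (q.tr h hh) g)]
  abel

theorem cp_sym (p : Zn D n a) (q : Zn D n b) :
    B2 cy D fun g h => cp w n a b g h - cp w n b a g h := by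
  refine ⟨fun h => -w n (a h) (b h), con1 ((p.lc.prodMk q.lc).comp fun z => -w n z.1 z.2),
    fun g hg h hh => mq_eq.1 ?_⟩
  simp only [d2, cp, map_add mq, map_sub mq, mul_neg, map_neg mq]
  rw [H.act g (p.tr h hh) (q.tr h hh), p.co g hg h hh, q.co g hg h hh,
    H.addl (p.tr g hg) (tor_map (p.tr h hh) g) (tor_add (q.tr g hg) (tor_map (q.tr h hh) g)),
    H.addr (p.tr g hg) (q.tr g hg) (tor_map (q.tr h hh) g),
    H.addr (tor_map (p.tr h hh) g) (q.tr g hg) (tor_map (q.tr h hh) g),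
    H.skew (q.tr g hg) (tor_map (p.tr h hh) g)]
  abel

variable (I : Iv D ι)
include I

theorem iv_addl (p : Zn D n a) (p' : Zn D n a') (q : Zn D n b) :
    ι (cp w n (a + a') b) = ι (cp w n a b) + ι (cp w n a' b) := by
  rw [← map_add]
  exact I.congr fun g hg h hh => (H.addl (p.tr g hg) (p'.tr g hg) (tor_map (q.tr h hh) g)).trans
    (map_add mq _ _).symm

theorem iv_addr (p : Zn D n a) (q : Zn D n b) (q' : Zn D n b') :
    ι (cp w n a (b + b')) = ι (cp w n a b) + ι (cp w n a b') := by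
  rw [← map_add]
  refine I.congr fun g hg h hh => ?_
  rw [cp, Pi.add_apply, map_add, H.addr (p.tr g hg) (tor_map (q.tr h hh) g) (tor_map (q'.tr h hh) g)]
  exact (map_add mq _ _).symm

theorem iv_levl (p : Zn D (n + 1) a) (q : Zn D n b) :
    ι (cp w n (2 • a) b) = ι (cp w (n + 1) a b) :=
  I.congr fun g hg h hh => H.levl (p.tr g hg) (tor_map (q.tr h hh) g)

theorem iv_same (hx : 2 ^ n • x ∈ Fx A B D) (e : 2 ^ n • x' = 2 ^ n • x) (q : Zn D n b) :
    ι (cp w n (dd A B x') b) = ι (cp w n (dd A B x) b) := by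
  have p : 2 ^ n • (x' - x) = 0 := by rw [nsmul_sub, e, sub_self]
  rw [← add_sub_cancel x x', map_add, iv_addl H I (zn_dd hx) (zn_dd (p ▸ zero_mem _)) q,
    I.b2 _ (cp_cobl H p q), add_zero]

theorem iv_up (c : ℕ) (hx : 2 ^ (n + c) • x ∈ Fx A B D) (q : Zn D n b) :
    ι (cp w n (dd A B (2 ^ c • x)) b) = ι (cp w (n + c) (dd A B x) b) := by
  induction c generalizing x with
  | zero => rw [pow_zero, one_smul, add_zero]
  | succ c ih =>
    rw [pow_succ, mul_smul, ih (by rwa [← mul_smul, ← pow_succ]), map_nsmul]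
    exact iv_levl H I (zn_dd hx) (q.up c)

theorem iv_ind (hx : 2 ^ n • x ∈ Fx A B D) (e : 2 ^ m • x' = 2 ^ n • x) (p : Zn D n b)
    (q : Zn D m b) : ι (cp w m (dd A B x') b) = ι (cp w n (dd A B x) b) := by
  obtain ⟨x, rfl⟩ := H.dvp m x
  obtain ⟨x', rfl⟩ := H.dvp n x'
  rw [← mul_smul, ← mul_smul, ← pow_add, ← pow_add] at e
  rw [← mul_smul, ← pow_add] at hx
  rw [iv_up H I m hx p, iv_up H I n (e ▸ hx) q, add_comm m n]
  exact iv_same H I hx (by rw [← e, add_comm]) (p.up m)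

/-- the value of the pairing -/
def pv (x : Fx A B D) (y : Zl A B D) : K ⧸ O :=
  ι (cp w (mem_Zl.1 y.2).choose (dd A B (H.dvp (mem_Zl.1 y.2).choose x.1).choose) y)

theorem pv_eq (x : Fx A B D) (y : Zl A B D) (e : 2 ^ n • x' = x) (q : Zn D n y.1) :
    pv (ι := ι) H x y = ι (cp w n (dd A B x') y) :=
  iv_ind H I (e ▸ x.2) ((H.dvp _ x.1).choose_spec.trans e.symm) q (mem_Zl.1 y.2).choose_spec

/-- **the local pairing** -/
def pr : Fx A B D →+ Zl A B D →+ K ⧸ O :=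
  AddMonoidHom.mk' (fun x => AddMonoidHom.mk' (pv (ι := ι) H x) fun y y' => by
    obtain ⟨n, p⟩ := mem_Zl.1 y.2
    obtain ⟨m, q⟩ := mem_Zl.1 y'.2
    have q' := add_comm m n ▸ q.up n
    obtain ⟨x', e⟩ := H.dvp (n + m) x.1
    rw [pv_eq H I x y e (p.up m), pv_eq H I x y' e q', pv_eq H I x _ e ((p.up m).add q')]
    exact iv_addr H I (zn_dd (e ▸ x.2)) (p.up m) q') fun x x' => AddMonoidHom.ext fun y => by
    obtain ⟨n, p⟩ := mem_Zl.1 y.2
    obtain ⟨u, e⟩ := H.dvp n x.1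
    obtain ⟨u', e'⟩ := H.dvp n x'.1
    show pv H _ y = pv H x y + pv H x' y
    rw [pv_eq H I x y e p, pv_eq H I x' y e' p, pv_eq H I (x + x') y (x' := u + u')
      (by rw [nsmul_add, e, e']; rfl) p, map_add]
    exact iv_addl H I (zn_dd (e ▸ x.2)) (zn_dd (e' ▸ x'.2)) p

theorem pr_eq (x : Fx A B D) (y : Zl A B D) (e : 2 ^ n • x' = x) (q : Zn D n y.1) :
    pr H I x y = ι (cp w n (dd A B x') y) := pv_eq H I x y e q

theorem pr_iff (x : Fx A B D) (y : Zl A B D) (e : 2 ^ n • x' = x) (q : Zn D n y.1) :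
    pr H I x y = 0 ↔ B2 cy D (cp w n (dd A B x') y) := by
  rw [pr_eq H I x y e q]
  exact ⟨I.iff _ (cp_z2 H (zn_dd (e ▸ x.2)) q), I.b2 _⟩

/-- the pairing only sees the values on `D` -/
theorem pr_congr (x : Fx A B D) {y y' : Zl A B D} (e : ∀ g ∈ D, y.1 g = y'.1 g) :
    pr H I x y = pr H I x y' := by
  obtain ⟨n, p⟩ := mem_Zl.1 y.2
  obtain ⟨u, k⟩ := H.dvp n x.1
  rw [pr_eq H I x y k p, pr_eq H I x y' k (.of y'.2 fun g m => e g m ▸ p.tr g m)]
  exact I.congr fun g _ h hh => by rw [cp, cp, e h hh]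

/-- a cocycle of level `n` kills the multiples of `2 ^ n` -/
theorem pr_pow (x : Fx A B D) (y : Zl A B D) (q : Zn D n y.1) : pr H I (2 ^ n • x) y = 0 :=
  (pr_iff H I _ y (x' := x) rfl q).2 (b2_zero fun g hg h hh => mq_zero.1 (by
    rw [cp, dd_apply, x.2 g hg, sub_self, H.zl (tor_map (q.tr h hh) g)]))

end

end Vale.Agent.P014T.Cp
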