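import Vale.Agent.P014T.Cp.Cc
import Vale.Agent.P014T.Bt.Defs
import Vale.Agent.P014T.Ba.Dv
import Vale.Agent.P004F.Pr.Cnt
import Vale.Agent.P022K.G2.Lib

/-! # P014T: local points of order two which are orthogonal to all framed cocycles are global -/

set_option autoImplicit false
set_option linter.all false

open NumberField Matrix Module
open scoped Pointwise Classical

noncomputable section

namespace Vale.Agent.P014T.Cp.Bb

open Vale.Agent.P022 (Qb GQ IsConj)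
open Vale.Agent.P022E.GW (Ov)
open Vale.Agent.P022D.W (dec)
open Vale.Agent.P027M.S (Inert)
open Vale.Agent.P022K Vale.Agent.P022K.G2
open P004M.TE (Pt ga ga_mul ga_one ev_ga)
open Wm (Fx)
open Bt (Z0 Zl)
open Ba (Tk Tp mem_Tk)

/-- the index computation -/
theorem cnt {X V : Type} [AddCommGroup X] [AddCommGroup V] {Y Z : AddSubgroup X} (ev : X →+ V)
    (hZ : ∀ x, x ∈ Z ↔ x ∈ Y ∧ ev x = 0) (C : AddSubgroup V) [Finite C]
    (hC : ∀ x ∈ Y, 2 • ev x = 0 → ev x ∈ C) (K : AddSubgroup Z)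
    (hK : ∀ z ∈ K, ∃ y ∈ Y, 2 • y = z.1) (h2 : (nsmulAddMonoidHom (α := Z) 2).range ≤ K) :
    (nsmulAddMonoidHom (α := Z) 2).range.index * Nat.card (Tk Y 1) ≤
      K.index * (Nat.card C * Nat.card (Tk Z 1)) := by
  set R := (nsmulAddMonoidHom (α := Z) 2).range
  have t1 (y : Tk Y 1) : 2 • y.1.1 = 0 := congrArg Subtype.val (show 2 • y.1 = 0 from y.2)
  let f : Tk Y 1 →+ C := ((ev.comp Y.subtype).comp (Tk Y 1).subtype).codRestrict C fun y =>
    hC y.1.1 y.1.2 (by rw [← map_nsmul, t1, map_zero])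
  have c1 : Nat.card f.ker = Nat.card (Tk Z 1) := Nat.card_congr
    ⟨fun y => ⟨⟨y.1.1.1, (hZ _).2 ⟨y.1.1.2, congrArg Subtype.val y.2⟩⟩, Subtype.ext (t1 y.1)⟩,
      fun z => ⟨⟨⟨z.1.1, ((hZ _).1 z.1.2).1⟩, Subtype.ext (congrArg Subtype.val (show 2 • z.1 = 0 from z.2) :)⟩,
        Subtype.ext ((hZ _).1 z.1.2).2⟩, fun _ => rfl, fun _ => rfl⟩
  choose y y1 y2 using fun z : K => hK z.1 z.2
  have m (z : K) : ev (y z) ∈ C := hC _ (y1 z) (by rw [← map_nsmul, y2, ((hZ _).1 z.1.2).2])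
  have c2 : R.relIndex K ≤ f.range.index :=
    Nat.card_le_card_of_injective (fun q : K ⧸ R.addSubgroupOf K =>
      (QuotientAddGroup.mk ⟨_, m q.out⟩ : C ⧸ f.range)) fun q q' e => by
      obtain ⟨t, ht⟩ := QuotientAddGroup.eq.1 e
      have ht' : ev t.1.1 = -ev (y q.out) + ev (y q'.out) := congrArg Subtype.val ht
      rw [← q.out_eq', ← q'.out_eq', QuotientAddGroup.eq]
      refine ⟨⟨-y q.out + y q'.out - t.1.1, (hZ _).2 ⟨sub_mem (add_mem (neg_mem (y1 _)) (y1 _))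
        t.1.2, by rw [map_sub, map_add, map_neg, ht', sub_self]⟩⟩, Subtype.ext ?_⟩
      show 2 • (-y q.out + y q'.out - t.1.1) = -q.out.1.1 + q'.out.1.1
      rw [nsmul_sub, nsmul_add, neg_nsmul, y2, y2, t1, sub_zero]
  rw [← AddSubgroup.relIndex_mul_index h2, ← f.ker.card_mul_index, AddSubgroup.index_ker, c1,
    ← f.range.index_mul_card]
  calc _ = R.relIndex K * (K.index * (Nat.card f.range * Nat.card (Tk Z 1))) := by ring
    _ ≤ f.range.index * _ := Nat.mul_le_mul_right _ c2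
    _ = _ := by ring

abbrev F2 : Type := ZMod 2

abbrev W : Type := Fin 2 → F2

variable {A B : ℤ}

/-- coordinates on the points of order two -/
structure Br (ι : W →+ Pt A B) (a : GQ → Matrix (Fin 2) (Fin 2) F2) : Prop where
  inj : Function.Injective ι
  rng : ∀ x, 2 • x = 0 → ∃ v, ι v = x
  eqv : ∀ g v, ι (a g *ᵥ v) = ga g (ι v)

theorem two_w (v : W) : 2 • v = 0 := by
  revert v
  decide

theorem ex_br (hD : 4 * A ^ 3 + 27 * B ^ 2 ≠ 0) : ∃ (ι : W →+ Pt A B) (a : _), Br ι a := by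
  have hD' : 4 * (A : ℚ) ^ 3 + 27 * (B : ℚ) ^ 2 ≠ 0 := by exact_mod_cast hD
  let M := (nsmulAddMonoidHom (α := Pt A B) 2).ker
  have cM : Nat.card M = 2 ^ 2 := P004M.TE.card_two (L := Qb) two_ne_zero hD'
  have fM : Finite M := Nat.finite_of_card_ne_zero (by omega)
  letI : Module F2 M := AddCommGroup.zmodModule fun x => Subtype.ext x.2
  have r : finrank F2 M = 2 := by
    rw [Module.natCard_eq_pow_finrank (K := F2), Nat.card_zmod] at cM
    exact Nat.pow_right_injective le_rfl cM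
  let e := (Module.finBasisOfFinrankEq F2 M r).equivFun
  let ρ : GQ → M →ₗ[F2] M := fun g => (((ga g).comp M.subtype).codRestrict M fun x => by
    show 2 • ga g (x : Pt A B) = 0
    rw [← map_nsmul, show 2 • (x : Pt A B) = 0 from x.2, map_zero]).toZModLinearMap 2
  refine ⟨M.subtype.comp e.symm.toAddMonoidHom,
    fun g => LinearMap.toMatrix' (e.toLinearMap ∘ₗ ρ g ∘ₗ e.symm.toLinearMap),
    Subtype.val_injective.comp e.symm.injective, fun x h => ⟨e ⟨x, h⟩, by simp⟩, fun g v => ?_⟩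
  rw [LinearMap.toMatrix'_mulVec]
  exact congrArg Subtype.val (e.symm_apply_apply _)

variable (A B) in
/-- the elements which fix the points of order two -/
def U2 : Subgroup GQ where
  carrier := {g | ∀ x : Pt A B, 2 • x = 0 → ga g x = x}
  one_mem' x _ := ga_one _
  mul_mem' a b x h := by rw [ga_mul, b x h, a x h]
  inv_mem' {g} a x h := by rw [← a x h, ← ga_mul, inv_mul_cancel, ga_one, a x h]

variable (A B) in
/-- large sets of primes -/
structure Lr (S : Finset ℕ) : Prop where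
  pr : ∀ l ∈ S, l.Prime
  bad : ∀ l : ℕ, l.Prime → (l : ℤ) ∣ 2 * (4 * A ^ 3 + 27 * B ^ 2) → l ∈ S
  bg : P022E.GW.Bg (U2 A B) (insert 0 S)
  hf : ∀ x ∈ Fx A B ⊤, (∀ l ∈ S, ∃ P, Ov l P ∧ Cc.Hf (dec P) x) → Cc.Hf ⊤ x

/-- `y` is twice a cocycle on `D` -/
def Hv (D : Subgroup GQ) (y : GQ → Pt A B) : Prop := ∃ z ∈ Zl A B D, ∀ g ∈ D, 2 • z g = y g

variable {S : Finset ℕ} {ι : W →+ Pt A B} {a : GQ → Matrix (Fin 2) (Fin 2) F2} {c : GQ}
  {P : ℕ → Ideal (𝓞 Qb)}

theorem in_ins : In (insert 0 S : Finset ℕ) = In S := Set.ext fun _ =>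
  ⟨fun ⟨l, h, p⟩ => ⟨l, fun m => h (Finset.mem_insert_of_mem m), p⟩, fun ⟨l, h, P, o, i⟩ =>
    ⟨l, fun m => h ((Finset.mem_insert.1 m).resolve_left o.1.ne_zero), P, o, i⟩⟩

theorem Lr.two (h : Lr A B S) : 2 ∈ S := h.bad 2 Nat.prime_two (dvd_mul_right _ _)

theorem Lr.unr (h : Lr A B S) {g : GQ} (m : g ∈ In S) {k : ℕ} {x : Pt A B} (t : 2 ^ k • x = 0) :
    ga g x = x := by
  obtain ⟨l, n, P, o, i⟩ := m
  have : Fact l.Prime := ⟨o.1⟩
  obtain ⟨κ, _, _, _, rd, h1, h2, -⟩ := P004M.TE.exists_rd (fun d => n (h.bad l o.1 d)) o.2.1 o.2.2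
  exact sub_eq_zero.1 (P004M.TE.inj_tors h1 k (by rw [nsmul_sub, ← map_nsmul, t, map_zero, sub_self])
    (by rw [map_sub, h2 g i, sub_self]))

namespace Br

variable (b : Br ι a)
include b

theorem two (v : W) : 2 • ι v = 0 := by rw [← map_nsmul, two_w, map_zero]

theorem one : a 1 = 1 := Matrix.ext_iff_mulVec.2 fun v => b.inj (by rw [b.eqv, ga_one, one_mulVec])

theorem mul (g h : GQ) : a (g * h) = a g * a h := Matrix.ext_iff_mulVec.2 fun v =>
  b.inj (by rw [← mulVec_mulVec, b.eqv, b.eqv, b.eqv, ga_mul])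

theorem mem {g : GQ} : g ∈ U2 A B ↔ a g = 1 :=
  ⟨fun h => Matrix.ext_iff_mulVec.2 fun v => b.inj (by rw [b.eqv, h _ (b.two v), one_mulVec]),
    fun h x t => by
      obtain ⟨v, rfl⟩ := b.rng x t
      rw [← b.eqv, h, one_mulVec]⟩

theorem opn : IsOpen (U2 A B : Set GQ) := (U2 A B).isOpen_of_mem_nhds (g := 1)
  ((Filter.eventually_all.2 fun v : W => ev_ga 1 (ι v)).mono fun g e x t => by
    obtain ⟨v, rfl⟩ := b.rng x t
    exact (e v).trans (ga_one _))

theorem rt {x : Pt A B} (t : 2 • x = 0) : ι (Function.invFun ι x) = x :=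
  Function.invFun_eq (b.rng x t)

theorem pd (h : Lr A B S) :
    Pd (In (insert 0 S : Finset ℕ)) ⊤ (U2 A B) (fun g => (a g).mulVecLin) (om 2 F2) := by
  have lv := Hb.lv_core (T := (insert 0 S : Finset ℕ)) b.opn fun g m x t =>
    h.unr (in_ins ▸ m) (k := 1) t
  have tri : ∀ u ∈ U2 A B, (a u).mulVecLin = 1 := fun u m => by
    rw [b.mem.1 m]; exact mulVecLin_one
  exact ⟨inferInstance, ⟨tri 1 (one_mem _), fun g _ j _ => by rw [b.mul]; exact mulVecLin_mul _ _,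
    _, lv, fun w _ m => tri w (Subgroup.normalCore_le _ m)⟩,
    P004F.Pr.prj2 (by simp) b.one (fun g _ j _ => b.mul g j) fun g =>
      b.mem.trans (and_iff_right trivial).symm, fun g _ u m x t => by
      rw [ga_mul, ga_mul, m _ (by rw [← map_nsmul, t, map_zero]), ← ga_mul, mul_inv_cancel, ga_one],
    ⟨_, lv, fun w _ m => Subgroup.normalCore_le _ m⟩, fun u _ m => tri u m, mu_om F2 ⊤,
    fun _ _ _ => om_two _ _⟩

end Br

/-- the places -/
def pl (S : Finset ℕ) (φ : Qb →+* ℂ) (P : ℕ → Ideal (𝓞 Qb)) (j : Option S) : Plc :=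
  j.elim (ip (.mk φ)) fun l => fp (P l)

theorem rps (φ : Qb →+* ℂ) (o : ∀ l ∈ S, Ov l (P l)) :
    Reps (⊤ : Subgroup GQ) (Ab (insert 0 S : Finset ℕ)) (pl S φ P) := by
  have xa : ∀ l : S, fp (P l) ∈ Ab {l.1} := fun l => mem_ab_fp.2 ⟨l, rfl, o l l.2⟩
  refine ⟨fun j g _ => Plc.ab_smul (y := pl S φ P j) ?_ g, fun y hy => ?_, ?_⟩
  · obtain _ | l := j
    exacts [mem_ab_ip.2 (Finset.mem_insert_self _ _),
      Ab_mono (Set.singleton_subset_iff.2 (Finset.mem_insert_of_mem l.2)) (xa l)]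
  · obtain ⟨l, hl, m⟩ := Plc.ab_one hy
    rcases Finset.mem_insert.1 hl with e | e
    · obtain ⟨g, hg⟩ := Plc.ab_trans (mem_ab_ip.2 (Eq.symm e)) m
      exact ⟨none, g, trivial, hg⟩
    · obtain ⟨g, hg⟩ := Plc.ab_trans (xa ⟨l, e⟩) m
      exact ⟨some _, g, trivial, hg⟩
  · rintro (_ | a) (_ | b) g - e
    exacts [rfl, absurd e Sum.inl_ne_inr, absurd e Sum.inr_ne_inl, congrArg _ (Subtype.ext
      (GW.Pl.ov_uniq (GW.ov_smul (o a a.2) g)
        ((show P b = g • P a from Sum.inl.inj e) ▸ o b b.2)))]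

theorem Lr.bg' (h : Lr A B S) : Bg (U2 A B) (insert 0 S) :=
  ⟨h.bg, fun l m => (Finset.mem_insert.1 m).imp_right (h.pr l)⟩

theorem coc_one {y : GQ → Pt A B} (h : y (1 * 1) = y 1 + ga 1 (y 1)) : y 1 = 0 := by
  rwa [mul_one, ga_one, left_eq_add] at h

/-- the zeros of a cocycle -/
def zs {y : GQ → Pt A B} (h : ∀ g j, y (g * j) = y g + ga g (y j)) : Subgroup GQ where
  carrier := {g | y g = 0}
  one_mem' := coc_one (h 1 1)
  mul_mem' {g j} p q := by rw [Set.mem_setOf_eq, h, p, q, map_zero, add_zero]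
  inv_mem' {g} p := by
    have := h g⁻¹ g
    rwa [inv_mul_cancel, coc_one (h 1 1), p, map_zero, add_zero, eq_comm] at this

/-- the elements which fix a set of points -/
def fx (s : Set (Pt A B)) : Subgroup GQ where
  carrier := {g | ∀ x ∈ s, ga g x = x}
  one_mem' x _ := ga_one _
  mul_mem' a b x h := by rw [ga_mul, b x h, a x h]
  inv_mem' {g} a x h := by rw [← a x h, ← ga_mul, inv_mul_cancel, ga_one, a x h]

theorem fx_open {s : Set (Pt A B)} (h : s.Finite) : IsOpen (fx s : Set GQ) :=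
  (fx s).isOpen_of_mem_nhds (g := 1) ((Filter.eventually_all_finite h).2 fun x _ =>
    (ev_ga 1 x).mono fun g e => e.trans (ga_one _))

/-- **global halving** -/
theorem half (hD : 4 * A ^ 3 + 27 * B ^ 2 ≠ 0) (h : Lr A B S) (hc : IsConj c)
    (o : ∀ l ∈ S, Ov l (P l)) {y : GQ → Pt A B} (hy : y ∈ Z0 A B S c)
    (hv : ∀ l ∈ S, Hv (dec (P l)) y) : ∃ z ∈ Z0 A B S 1, 2 • z = y := by
  have hD' : 4 * (A : ℚ) ^ 3 + 27 * (B : ℚ) ^ 2 ≠ 0 := by exact_mod_cast hD
  obtain ⟨ι, a, b⟩ := ex_br hD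
  obtain ⟨φ, hφ⟩ := hc
  obtain ⟨lc, co, ⟨k, tk⟩, ur, y0⟩ := hy
  choose hf₀ e₀ using fun x : Pt A B => P004M.TE.dbl_surj two_ne_zero hD' x
  obtain ⟨hf, f0, f2⟩ : ∃ hf : Pt A B → Pt A B, hf 0 = 0 ∧ ∀ x, 2 • hf x = x :=
    ⟨fun x => if x = 0 then 0 else hf₀ x, if_pos rfl, fun x => by by_cases e : x = 0 <;> simp [e, e₀]⟩
  have tk' (g) : 2 ^ (k + 1) • hf (y g) = 0 := by rw [pow_succ, mul_smul, f2, tk]
  have := cpt
  have lv := Hb.lv_core (T := (insert 0 S : Finset ℕ)) (Z := zs co ⊓ fx (Set.range (hf ∘ y)))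
    ((lc.isOpen_fiber 0).inter (fx_open (lc.comp hf).range_finite)) fun g m =>
      ⟨ur g (in_ins ▸ m), by rintro _ ⟨j, rfl⟩; exact h.unr (in_ins ▸ m) (tk' j)⟩
  set V := (zs co ⊓ fx (Set.range (hf ∘ y))).normalCore
  have v1 (g) {w} (m : w ∈ V) : y (g * w) = y g := by
    rw [co, (Subgroup.normalCore_le _ m).1, map_zero, add_zero]
  have v2 (g) {w} (m : w ∈ V) : ga w (hf (y g)) = hf (y g) :=
    (Subgroup.normalCore_le _ m).2 _ ⟨g, rfl⟩
  let β (g j : GQ) : W := Function.invFun ι (ga g (hf (y j)) - hf (y (g * j)) + hf (y g))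
  have eβ (g j) : ι (β g j) = ga g (hf (y j)) - hf (y (g * j)) + hf (y g) := b.rt (by
    rw [nsmul_add, nsmul_sub, ← map_nsmul, f2, f2, f2, co]; abel)
  have d := b.pd h
  have z2 : β ∈ Z2 (In (insert 0 S : Finset ℕ)) ⊤ fun g => (a g).mulVecLin :=
    ⟨fun g _ i _ j _ => b.inj (by
      simp only [map_add, mulVecLin_apply, b.eqv, eβ, map_sub, ga_mul, mul_assoc]; abel),
      V, lv, fun g _ j _ w _ m => ⟨b.inj (by
        rw [eβ, eβ, ga_mul, v2 j m, v1 g m, show g * w * j = g * j * (j⁻¹ * w * j) by group,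
          v1 _ (lv.nrm.conj_mem' _ m j)]), b.inj (by rw [eβ, eβ, ← mul_assoc, v1 _ m, v1 _ m])⟩⟩
  obtain ⟨u, ⟨V', lv', hu⟩, e⟩ := rq_eq_zero.1 (chi02 F2 W ⊤ _ _ _ _ _ le_top (le_gz_two _) h.bg'
    (Finset.mem_insert_self _ _) (Finset.mem_insert_of_mem h.two) d.le (rps φ o) d).1
    (x := β) ⟨z2, (Submodule.mem_iInf _).2 (by
      rintro (_ | l)
      · have z : ∀ g ∈ Dv ⊤ (pl S φ P) none, y g = 0 := fun g m => by
          rcases (st_conj hφ).le m.2 with rfl | rfl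
          exacts [(zs co).one_mem, y0]
        exact b2_of_zero fun g p j q => b.inj (by
          rw [eβ, z g p, z j q, z _ (mul_mem p q), f0, map_zero, map_zero, sub_self, add_zero])
      · obtain ⟨z, ⟨z1, z3, -⟩, z4⟩ := hv l l.2
        have dm {g} (m : g ∈ Dv ⊤ (pl S φ P) (some l)) : g ∈ dec (P l) := st_fp (P l) ▸ m.2
        obtain ⟨O, o1, o2⟩ := isOpen_induced_iff.1 (z1.isOpen_fiber 0)
        obtain ⟨V', lv', le⟩ := ex_lv o1 (show (1 : dec (P l)) ∈ Subtype.val ⁻¹' O from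
          o2 ▸ coc_one (z3 1 (one_mem _) 1 (one_mem _)))
        have ec {g} (m : g ∈ dec (P l)) : ι (Function.invFun ι (hf (y g) - z g)) = hf (y g) - z g :=
          b.rt (by rw [nsmul_sub, f2, z4 g m, sub_self])
        refine ⟨fun g => Function.invFun ι (hf (y g) - z g), ⟨V ⊓ V',
          (lv.mono (Set.empty_subset _)).inf lv', fun g p w q m => ?_⟩, fun g p j q => b.inj ?_⟩
        · have : z w = 0 := o2.le (show (⟨w, dm q⟩ : dec (P l)) ∈ Subtype.val ⁻¹' O from le m.2)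
          simp only [v1 g m.1, z3 g (dm p) w (dm q), this, map_zero, add_zero]
        · simp only [eβ, d1_apply, map_add, map_sub, mulVecLin_apply, b.eqv, ec (dm p), ec (dm q),
            ec (dm (mul_mem p q))]
          rw [z3 g (dm p) j (dm q)]
          abel)⟩
  have cz (g j) : hf (y (g * j)) - ι (u (g * j)) = hf (y g) - ι (u g) + ga g (hf (y j) - ι (u j)) := by
    have := congrArg ι (e g trivial j trivial)
    simp only [eβ, d1_apply, map_add, map_sub, mulVecLin_apply, b.eqv] at this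
    rw [map_sub, ← sub_eq_zero, ← neg_eq_zero, ← sub_eq_zero.2 this]
    abel
  have w1 (g) {w} (m : w ∈ V ⊓ V') : hf (y (g * w)) - ι (u (g * w)) = hf (y g) - ι (u g) := by
    rw [v1 g m.1, hu g trivial w trivial m.2]
  have z1 := coc_one (y := fun g => hf (y g) - ι (u g)) (cz 1 1)
  refine ⟨fun g => hf (y g) - ι (u g), ⟨P004S.lc_of_open (lv.inf lv').opn (one_mem _)
    fun g w m => w1 g m, cz, ⟨k + 1, fun g => ?_⟩, fun g m => ?_, z1⟩, funext fun g => ?_⟩
  · rw [nsmul_sub, tk', pow_succ, mul_smul, b.two, nsmul_zero, sub_self]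
  · have := w1 1 ((lv.inf lv').sub (in_ins.symm ▸ m))
    rwa [one_mul, z1] at this
  · show 2 • (hf (y g) - ι (u g)) = y g
    rw [nsmul_sub, f2, b.two, sub_zero]

variable (A B) in
/-- the number of points of order at most two which are fixed by `D` -/
def h0 (D : Subgroup GQ) : ℕ := Nat.card (Tk (Fx A B D) 1)

theorem Br.h0 (b : Br ι a) (D : Subgroup GQ) :
    2 ^ finrank F2 (H0 D (fun g => (a g).mulVecLin) fun _ => 1) = h0 A B D := by
  have := Module.natCard_eq_pow_finrank (K := F2) (V := H0 D (fun g => (a g).mulVecLin) fun _ => 1)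
  rw [Nat.card_zmod] at this
  refine this.symm.trans (Nat.card_congr (Equiv.ofBijective (fun v => ⟨⟨ι v.1, fun g m => ?_⟩,
    Subtype.ext (b.two _)⟩) ⟨fun v v' e => Subtype.ext (b.inj (congrArg (·.1.1) e)), fun x => ?_⟩))
  · rw [← b.eqv]
    exact congrArg ι ((v.2 g m).trans (one_smul _ _))
  · obtain ⟨v, e⟩ := b.rng x.1.1 (congrArg Subtype.val (show 2 • x.1 = 0 from x.2))
    exact ⟨⟨v, fun g m => b.inj (by
      rw [one_smul, mulVecLin_apply, b.eqv, e, x.1.2 g m])⟩, Subtype.ext (Subtype.ext e)⟩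

theorem h0_ne (hD : 4 * A ^ 3 + 27 * B ^ 2 ≠ 0) (D : Subgroup GQ) : h0 A B D ≠ 0 := by
  obtain ⟨ι, a, b⟩ := ex_br hD
  rw [← b.h0]
  positivity

/-- **the global count** -/
theorem glob (hD : 4 * A ^ 3 + 27 * B ^ 2 ≠ 0) (h : Lr A B S) (hc : IsConj c)
    (o : ∀ l ∈ S, Ov l (P l)) : Nat.card (Tk (Z0 A B S 1) 1) * h0 A B ⊤ =
      h0 A B (Subgroup.zpowers c) * (∏ l : S, h0 A B (dec (P l))) * 4 := by
  obtain ⟨ι, a, b⟩ := ex_br hD
  obtain ⟨φ, hφ⟩ := hc
  have d := b.pd h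
  have g := gpc 2 F2 W ⊤ _ _ _ _ _ le_top (le_gz_two _) h.bg'
    (Finset.mem_insert_self _ _) (Finset.mem_insert_of_mem h.two) d.le (rps φ o) d
  have u : ∀ D : Subgroup GQ, rk (Hm D (fun g => (a g).mulVecLin) (om 2 F2)) =
      finrank F2 (H0 D (fun g => (a g).mulVecLin) fun _ => 1) := fun D => by
    have := Cx.pd_res d (le_top (a := D))
    rw [Module.finrank_eq_rank, ← om_two']
    exact (prd GQ F2 W ∅ _ _ _ _ this.fin this.rp this.prj this.nz this.tri this.mu this.om).symm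
  simp only [u] at g
  rw [rank_fin_fun, ← Nat.cast_sum, ← Nat.cast_add] at g
  have f : Module.Finite F2 (Z1 (In (insert 0 S : Finset ℕ)) ⊤ fun g => (a g).mulVecLin) :=
    Module.rank_lt_aleph0_iff.1 ((self_le_add_right _ _).trans_lt (g ▸ Cardinal.natCast_lt_aleph0))
  rw [rk, ← Module.finrank_eq_rank, ← Nat.cast_add, Nat.cast_inj] at g
  have e : Nat.card (Z1 (In (insert 0 S : Finset ℕ)) ⊤ fun g => (a g).mulVecLin) =
      Nat.card (Tk (Z0 A B S 1) 1) := by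
    refine Nat.card_congr (Equiv.ofBijective (fun z => ⟨⟨fun g => ι (z.1 g), ?_⟩,
      Subtype.ext (funext fun g => b.two _)⟩) ⟨fun z z' e => Subtype.ext (funext fun g =>
        b.inj (congrFun (congrArg (·.1.1) e) g)), fun x => ?_⟩)
    · obtain ⟨z, p, -, V, hV, q⟩ := z
      have co (g j) : ι (z (g * j)) = ι (z g) + ga g (ι (z j)) := by
        rw [p g trivial j trivial, map_add, mulVecLin_apply, b.eqv]
      exact ⟨P004S.lc_of_open hV.opn (one_mem _) fun g w m => by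
          rw [co, q w trivial m, map_zero, map_zero, add_zero], co, ⟨1, fun g => b.two _⟩,
        fun g m => (congrArg ι (q g trivial (hV.sub (in_ins.symm ▸ m)))).trans (map_zero ι),
        coc_one (y := fun g => ι (z g)) (co 1 1)⟩
    · obtain ⟨⟨x, lc, co, -, ur, -⟩, t⟩ := x
      have e (g) : ι (Function.invFun ι (x g)) = x g :=
        b.rt (congrFun (congrArg Subtype.val (mem_Tk.1 t)) g)
      exact ⟨⟨fun g => Function.invFun ι (x g), fun g _ j _ => b.inj (by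
          rw [map_add, mulVecLin_apply, b.eqv, e, e, e, co]), fun g m => absurd trivial m, _,
        Hb.lv_core (Z := zs co) (lc.isOpen_fiber 0) fun g m => ur g (in_ins ▸ m), fun w _ m =>
          b.inj (by rw [e, map_zero]; exact Subgroup.normalCore_le (zs co) m)⟩,
        Subtype.ext (Subtype.ext (funext e))⟩
  rw [← e, Module.natCard_eq_pow_finrank (K := F2), Nat.card_zmod, ← b.h0, ← pow_add, g, pow_add,
    ← Finset.prod_pow_eq_pow_sum, Fintype.prod_option]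
  simp only [b.h0]
  refine congrArg (· * 4) (congrArg₂ _ (congrArg (h0 A B) (le_antisymm (fun g m => ?_) ?_))
    (Finset.prod_congr rfl fun l _ => congrArg (h0 A B) ((top_inf_eq _).trans (st_fp _))))
  · rcases (st_conj hφ).le m.2 with rfl | rfl
    exacts [one_mem _, Subgroup.mem_zpowers _]
  · exact Subgroup.zpowers_le.2 ⟨trivial, (st_conj hφ).ge (.inr rfl)⟩

/-- large sets exist, and stay large -/
theorem ex_lr (hD : 4 * A ^ 3 + 27 * B ^ 2 ≠ 0) : ∃ S₀ : Finset ℕ, (∀ l ∈ S₀, l.Prime) ∧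
    ∀ S : Finset ℕ, S₀ ⊆ S → (∀ l ∈ S, l.Prime) → Lr A B S := by
  obtain ⟨ι, a, b⟩ := ex_br hD
  obtain ⟨S₁, p1, q1⟩ := P022E.GW.Hy.ex_bg b.opn
  obtain ⟨S₂, p2, q2⟩ := Cc.cc hD ∅
  refine ⟨S₁ ∪ S₂ ∪ (2 * (4 * A ^ 3 + 27 * B ^ 2)).natAbs.primeFactors, fun l m => ?_,
    fun S le pr => ⟨pr, fun l p d => le (Finset.mem_union_right _ (Nat.mem_primeFactors.2
      ⟨p, Int.natCast_dvd.1 d, by simpa using hD⟩)), q1 _ fun l m => Finset.mem_insert_of_mem
      (le (by simp [m])), fun x hx h => q2 x hx fun l m => h l (le (by simp [m]))⟩⟩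
  simp only [Finset.mem_union] at m
  rcases m with (m | m) | m
  exacts [p1 l m, (p2 l m).1, Nat.prime_of_mem_primeFactors m]

variable (A B S P) in
/-- the local points -/
abbrev Yl : Type := ∀ l : S, Fx A B (dec (P l))

variable (A B S P) in
/-- the diagonal -/
def dg : Fx A B ⊤ →+ Yl A B S P := Pi.addMonoidHom fun _ => AddSubgroup.inclusion fun _ h g _ =>
  h g trivial

theorem dg_apply (x : Fx A B ⊤) (l : S) : (dg A B S P x l).1 = x.1 := rfl

theorem dg_inj (h : Lr A B S) : Function.Injective (dg A B S P) := fun _ _ e =>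
  Subtype.ext (congrArg (fun y : Yl A B S P => (y ⟨2, h.two⟩).1) e)

theorem card_yl : Nat.card (Tk (Yl A B S P) 1) = ∏ l : S, h0 A B (dec (P l)) :=
  (Nat.card_congr ⟨fun y l => ⟨y.1 l, congrFun (mem_Tk.1 y.2) l⟩,
    fun y => ⟨fun l => (y l).1, funext fun l => (y l).2⟩, fun _ => rfl, fun _ => rfl⟩).trans
    Nat.card_pi

/-- **(b)** -/
theorem bb (hD : 4 * A ^ 3 + 27 * B ^ 2 ≠ 0) (h : Lr A B S) (hc : IsConj c)
    (o : ∀ l ∈ S, Ov l (P l)) (pr : Yl A B S P →+ Z0 A B S c →+ Ba.Dv)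
    (hv : ∀ z : Z0 A B S c, (∀ y, 2 • y = 0 → pr y z = 0) → ∀ l ∈ S, Hv (dec (P l)) z.1)
    (rc : ∀ x z, pr (dg A B S P x) z = 0)
    (ix : (nsmulAddMonoidHom (α := Z0 A B S c) 2).range.index ≠ 0)
    (ck : Nat.card (Tk (Z0 A B S c) 1) ≤ 4 * (nsmulAddMonoidHom (α := Z0 A B S c) 2).range.index)
    {y : Yl A B S P} (y2 : 2 • y = 0) (hy : ∀ z, pr y z = 0) : y ∈ (dg A B S P).range := by
  have ne := fun D => h0_ne hD D
  have fT : Finite (Tk (Yl A B S P) 1) := Nat.finite_of_card_ne_zero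
    (card_yl.trans_ne (Finset.prod_ne_zero_iff.2 fun _ _ => ne _))
  let p := pr.comp (Tk (Yl A B S P) 1).subtype
  let C := (Tk (Fx A B (Subgroup.zpowers c)) 1).map (Fx A B _).subtype
  have cC : Nat.card C = h0 A B (Subgroup.zpowers c) :=
    AddSubgroup.card_map_of_injective Subtype.val_injective
  have : Finite C := Nat.finite_of_card_ne_zero (cC.trans_ne (ne _))
  have cc : c * c = 1 := by
    obtain ⟨φ, hφ⟩ := hc
    exact AlgEquiv.ext fun x => φ.injective (by simp [hφ])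
  have k := cnt (Y := Z0 A B S 1) (Z := Z0 A B S c) (Pi.evalAddMonoidHom (fun _ => Pt A B) c)
    (fun x => ⟨fun ⟨a1, a2, a3, a4, a5⟩ => ⟨⟨a1, a2, a3, a4, coc_one (a2 1 1)⟩, a5⟩,
      fun ⟨⟨a1, a2, a3, a4, _⟩, a5⟩ => ⟨a1, a2, a3, a4, a5⟩⟩) C
    (fun x ⟨_, a2, _, _, a5⟩ t => ⟨⟨x c, fun g m => Subgroup.zpowers_le (H := fx {x c}).2 (by
      rintro _ rfl
      have := a2 c c
      rw [cc, a5] at this
      exact add_left_cancel (this.symm.trans (t.symm.trans (two_nsmul _)))) m _ rfl⟩,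
      Subtype.ext t, rfl⟩) p.flip.ker
    (fun z m => half hD h hc o z.2 (hv z fun y t => DFunLike.congr_fun m ⟨y, t⟩))
    (by
      rintro _ ⟨z, rfl⟩
      refine AddMonoidHom.ext fun t => ?_
      show pr t.1 (2 • z) = 0
      rw [map_nsmul, ← AddMonoidHom.nsmul_apply, ← map_nsmul, show 2 • t.1 = 0 from t.2, map_zero,
        AddMonoidHom.zero_apply])
  rw [(Ba.fd (fun t => ⟨1, Subtype.ext t.2⟩) p).1, cC] at k
  have g := glob hD h hc o
  rw [← card_yl, ← p.ker.index_mul_card] at g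
  have i0 : p.ker.index ≠ 0 := AddSubgroup.index_ne_zero_of_finite
  have le : Nat.card p.ker ≤ h0 A B ⊤ := by
    have k1 := Nat.le_of_mul_le_mul_left (k.trans ((Nat.mul_le_mul_left _ (Nat.mul_le_mul_left _ ck)).trans_eq
      (by ring : _ = _ * (p.ker.index * h0 A B (Subgroup.zpowers c) * 4)))) (Nat.pos_of_ne_zero ix)
    have k2 := g.ge.trans (Nat.mul_le_mul_right _ k1)
    refine Nat.le_of_mul_le_mul_left (le_of_eq_of_le ?_ k2) (c := p.ker.index * _ * 4)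
      (by have := ne (Subgroup.zpowers c); positivity)
    ring
  let f (x : Tk (Fx A B ⊤) 1) : p.ker := ⟨⟨dg A B S P x.1, by
    rw [mem_Tk, ← map_nsmul, mem_Tk.1 x.2, map_zero]⟩, AddMonoidHom.ext (rc _)⟩
  obtain ⟨x, e⟩ := (Function.Injective.bijective_of_nat_card_le (f := f) (fun x x' e => Subtype.ext
    (dg_inj h (congrArg (·.1.1) e))) le).2 ⟨⟨y, y2⟩, AddMonoidHom.ext hy⟩
  exact ⟨x.1, congrArg (·.1.1) e⟩

/-- **(c)** in the same words -/
theorem hc (h : Lr A B S) (o : ∀ l ∈ S, Ov l (P l)) {y : Yl A B S P}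
    (hy : 2 • y ∈ (dg A B S P).range) : ∃ r ∈ (dg A B S P).range, 2 • y = 2 • r := by
  obtain ⟨x, e⟩ := hy
  have k : ∀ l ∈ S, ∃ Q, Ov l Q ∧ Cc.Hf (dec Q) x.1 := fun l k =>
    ⟨P l, o l k, (y ⟨l, k⟩).1, (y ⟨l, k⟩).2, by
      rw [← dg_apply (P := P) x ⟨l, k⟩, e, Pi.smul_apply, AddSubgroup.coe_nsmul]⟩
  obtain ⟨z, m, t⟩ := h.hf x.1 x.2 k
  have t' : x = 2 • (⟨z, m⟩ : Fx A B ⊤) := Subtype.ext t.symm
  exact ⟨dg A B S P ⟨z, m⟩, ⟨_, rfl⟩, by rw [← e, t', map_nsmul]⟩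

end Vale.Agent.P014T.Cp.Bb
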