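import Vale.Agent.P014T.Cp.One
import Vale.Agent.P014T.Cp.Bb
import Vale.Agent.P014T.L2.All
import Vale.Agent.P014T.Ba.Cnt

/-! # P014T: a local cocycle which is orthogonal to the points of order two is a double -/

set_option autoImplicit false
set_option linter.all false

open NumberField Matrix
open scoped Classical

noncomputable section

namespace Vale.Agent.P014T.Cp.Bb

open Vale.Agent.P022 (Qb GQ IsConj)
open Vale.Agent.P022E.GW (Ov)
open Vale.Agent.P022D.W (dec)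
open Vale.Agent.P022K
open Vale.Agent.P004S (rb)
open Vale.Agent.P004S.Ga (K O d2 d3 Z2 B2)
open Vale.Agent.P004S.Aq
open Vale.Agent.P004F.Rc (mq mq_zero)
open P004M.TE (Pt ga rep)
open Ki (wp tor_map)
open Wm (Fx)
open Bt (Z0 Zl Z0_le)
open Ba (Tk mem_Tk)

variable {A B : ℤ} (hD : 4 * (A : ℚ) ^ 3 + 27 * (B : ℚ) ^ 2 ≠ 0)

theorem br : Br (vv hD) (rb (rep hD)) :=
  ⟨vv_inj hD, fun _ h => ex_vv hD h, fun g v => (ga_vv hD g v).symm⟩

theorem rp (D : Subgroup GQ) : G2.Rp ∅ D (ro hD) :=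
  ⟨by rw [ro, (br hD).one]; exact mulVecLin_one,
    fun g _ j _ => by rw [ro, (br hD).mul]; exact mulVecLin_mul _ _,
    (G2.ex_lv (br hD).opn (one_mem _)).imp fun _ h => ⟨h.1, fun w _ m => by
      rw [ro, (br hD).mem.1 (h.2 m)]; exact mulVecLin_one⟩⟩

theorem sub_co {M : Type} [AddCommGroup M] {a b c a' b' c' : M} (h : a - b + c = a' - b' + c') :
    b - b' = c - c' + (a - a') := by
  rw [← sub_eq_zero, ← neg_eq_zero, ← sub_eq_zero.2 h]
  abel

/-- **local halving** -/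
theorem hv {l : ℕ} {P : Ideal (𝓞 Qb)} (o : Ov l P) {ι : (GQ → GQ → K) →+ K ⧸ O} (I : Iv (dec P) ι)
    (x : Zl A B (dec P)) (h : ∀ t, 2 • t = 0 → pr (Ki.pr hD) I t x = 0) : Hv (dec P) x.1 := by
  have H : Ki.Pr (M := Pt A B) ga (wp hD) := Ki.pr hD
  choose hf f2 using H.dv
  obtain ⟨n, q⟩ := mem_Zl.1 x.2
  let y (g : GQ) : Pt A B := hf (x.1 g)
  have p : IsLocallyConstant fun g : dec P => y g := q.lc.comp hf
  have q2 : Zn (dec P) n (2 • y) := by rwa [show 2 • y = x.1 from funext fun g => f2 _]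
  have e {g j} (a : g ∈ dec P) (b : j ∈ dec P) : vv hD (uv hD (bk y g j)) = bk y g j :=
    vv_uv hD (bk_two q2 a b)
  obtain ⟨u, hu, k⟩ := L2.ld2 ⟨⊤, isOpen_univ, (top_inf_eq _).symm⟩ o (rp hD _)
    (z := fun g j => uv hD (bk y g j)) ⟨fun g a i b j c => vv_inj hD (by
      rw [map_add, map_add, mulVecLin_apply, ← ga_vv, e b c, e a (mul_mem b c), e (mul_mem a b) c,
        e a b, bk_co]), G2.c2_of_lc (G2.dec_closed P) ((bk_lc p).comp (uv hD))⟩ fun v hv => by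
      have m : vv hD v ∈ Fx A B (dec P) := fun g a => by rw [ga_vv, hv g a]
      have t := vv_two hD v
      refine (b2_iff hD (G2.dec_closed P) (u := fun g j => wp hD 1 (vv hD v) (bk y g j))
        fun g a j b => by rw [e a b]).1 (I.iff _ ⟨con2 (F := fun g j => wp hD 1 (vv hD v) (bk y g j)) ((bk_lc p).comp (wp hD 1 (vv hD v))),
          fun g a i b j c => mq_zero.1 ?_⟩ (neg_eq_zero.1 ((bock H I ⟨_, m⟩ t x p
            fun g _ => f2 _).symm.trans (h _ (Subtype.ext t)))))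
      have c1 := H.addr t (tor_map (ρ := ga) (bk_two q2 b c) g) (bk_two q2 a (mul_mem b c))
      rw [bk_co, H.addr t (bk_two q2 (mul_mem a b) c) (bk_two q2 a b)] at c1
      simp only [d3, map_add mq, map_sub mq]
      rw [H.act g t (bk_two q2 b c), m g a, sub_eq_zero, sub_add_eq_add_sub, ← c1, add_sub_cancel_left]
  refine ⟨fun g => y g - vv hD (u g), ⟨p.sub ((G2.C1.lc hu).comp (vv hD)), fun g a j b => ?_,
    n + 1, fun g a => ?_⟩, fun g _ => ?_⟩
  · have := congrArg (vv hD) (k g a j b)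
    rw [e a b, G2.d1_apply, map_add, map_sub, mulVecLin_apply, ← ga_vv, bk] at this
    show y (g * j) - vv hD (u (g * j)) = y g - vv hD (u g) + ga g (y j - vv hD (u j))
    rw [map_sub]
    exact sub_co this
  · rw [pow_succ, mul_smul, nsmul_sub, f2, (br hD).two, sub_zero, q.tr g a]
  · rw [nsmul_sub, f2, (br hD).two, sub_zero]

variable {S : Finset ℕ} {c : GQ} {P : ℕ → Ideal (𝓞 Qb)}

omit hD

theorem z0_tor (z : Z0 A B S c) : ∃ k : ℕ, 2 ^ k • z = 0 :=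
  z.2.2.2.1.imp fun _ h => Subtype.ext (funext h)

theorem fin1 (hD : 4 * A ^ 3 + 27 * B ^ 2 ≠ 0) (h : Lr A B S) (hc : IsConj c)
    (o : ∀ l ∈ S, Ov l (P l)) : Finite (Tk (Z0 A B S c) 1) := by
  have : Finite (Tk (Z0 A B S 1) 1) := Nat.finite_of_card_ne_zero (left_ne_zero_of_mul
    ((glob hD h hc o).trans_ne (mul_ne_zero (mul_ne_zero (h0_ne hD _)
      (Finset.prod_ne_zero_iff.2 fun _ _ => h0_ne hD _)) (by norm_num))))
  exact Finite.of_injective (fun z : Tk (Z0 A B S c) 1 => (⟨⟨z.1.1, z.1.2.1, z.1.2.2.1, z.1.2.2.2.1,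
    z.1.2.2.2.2.1, coc_one (z.1.2.2.1 1 1)⟩, Subtype.ext (congrArg Subtype.val (mem_Tk.1 z.2) :)⟩ :
    Tk (Z0 A B S 1) 1)) fun _ _ e => Subtype.ext (Subtype.ext (congrArg (·.1.1) e))

/-- **(b)** for the sum of the local pairings -/
theorem hb (hD : 4 * (A : ℚ) ^ 3 + 27 * (B : ℚ) ^ 2 ≠ 0) (h : Lr A B S) (hc : IsConj c)
    (o : ∀ l ∈ S, Ov l (P l)) {ι : S → (GQ → GQ → K) →+ K ⧸ O} (I : ∀ l : S, Iv (dec (P l)) (ι l))
    (PR : Yl A B S P →+ Z0 A B S c →+ Ba.Dv)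
    (e : ∀ y z, PR y z = ∑ l : S, pr (Ki.pr hD) (I l) (y l) ⟨z.1, Z0_le S c _ z.2⟩)
    (rc : ∀ x z, PR (dg A B S P x) z = 0) {k : ℕ}
    (ck : Nat.card (Tk (Z0 A B S c) (k + 1)) ≤ 4 * Nat.card (Tk (Z0 A B S c) k))
    {y : Yl A B S P} (y2 : 2 • y = 0) (hy : ∀ z, PR y z = 0) : y ∈ (dg A B S P).range := by
  have hD' : 4 * A ^ 3 + 27 * B ^ 2 ≠ 0 := by exact_mod_cast hD
  have := fin1 hD' h hc o
  refine bb hD' h hc o PR (fun z hz l m => hv hD (o l m) (I ⟨l, m⟩) ⟨z.1, Z0_le S c _ z.2⟩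
    fun t ht => ?_) rc (Ba.two_index z0_tor) (Ba.cork_le z0_tor ck) y2 hy
  have := hz (Pi.single ⟨l, m⟩ t) (by rw [← Pi.single_smul, ht, Pi.single_zero])
  rwa [e, Finset.sum_eq_single ⟨l, m⟩ (fun j _ n => by
    rw [Pi.single_eq_of_ne n, map_zero, AddMonoidHom.zero_apply]) (by simp),
    Pi.single_eq_same] at this

end Vale.Agent.P014T.Cp.Bb
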