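import Vale.Agent.P014T.Ht.Wmw
import Vale.Agent.P022K.Cheb.Main
import Vale.Agent.P022K.GW.Pl

/-! # P014T: a rational point which is locally a double at enough primes is a double -/

set_option autoImplicit false
set_option linter.all false

open NumberField
open scoped Pointwise

noncomputable section

namespace Vale.Agent.P014T.Cp.Cc

open Vale.Agent.P022 (Qb GQ)
open Vale.Agent.P022E.GW (Ov)
open Vale.Agent.P022D.W (dec)
open P004M.TE (Pt ga ga_mul ga_one ev_ga)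
open Wm (Fx)

/-- the number of fixed points -/
def nf (a : Equiv.Perm (Fin 4)) : ℕ := (Finset.univ.filter fun t => a t = t).card

theorem p4 : ∀ a b : Equiv.Perm (Fin 4), ∀ t, a t = t → b t ≠ t → nf b < nf a ∨ nf (a * b) < nf a ∨
    nf (a * (b * a * b⁻¹)) = 0 ∨ nf (a * a * (b * a * b⁻¹)) = 0 := by decide +kernel

/-- a group acting on four points, every element with a fixed point, has a fixed point -/
theorem fix4 {G T : Type} [Group G] [MulAction G T] (hT : Nat.card T = 4)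
    (h : ∀ g : G, ∃ t : T, g • t = t) : ∃ t : T, ∀ g : G, g • t = t := by
  have : Finite T := Nat.finite_of_card_ne_zero (by omega)
  let e : T ≃ Fin 4 := Finite.equivFinOfCardEq hT
  let f : G →* Equiv.Perm (Fin 4) := e.permCongrHom.toMonoidHom.comp (MulAction.toPermHom G T)
  have hf (g : G) (t : T) : f g (e t) = e (g • t) := by simp [f]
  have p (g : G) : nf (f g) ≠ 0 := by
    obtain ⟨t, ht⟩ := h g
    exact Finset.card_ne_zero.2 ⟨e t, by simp [hf, ht]⟩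
  obtain ⟨a, -, ha⟩ := (measure fun g : G => nf (f g)).wf.has_min Set.univ ⟨1, trivial⟩
  obtain ⟨t, ht⟩ := h a
  refine ⟨t, fun g => by_contra fun k => ?_⟩
  rcases p4 (f a) (f g) (e t) (by rw [hf, ht]) (by rw [hf]; exact fun c => k (e.injective c))
    with c | c | c | c
  · exact ha g trivial c
  · exact ha (a * g) trivial (by rwa [← map_mul] at c)
  · exact p (a * (g * a * g⁻¹)) (by simpa only [map_mul, map_inv] using c)
  · exact p (a * a * (g * a * g⁻¹)) (by simpa only [map_mul, map_inv] using c)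

open scoped Classical

variable {A B : ℤ}

/-- `x` is a double of a point fixed by `Γ` -/
def Hf (Γ : Subgroup GQ) (x : Pt A B) : Prop := ∃ y ∈ Fx A B Γ, 2 • y = x

/-- one point -/
theorem one (hD : 4 * A ^ 3 + 27 * B ^ 2 ≠ 0) {x : Pt A B} (hx : x ∈ Fx A B ⊤) (k : ¬ Hf ⊤ x)
    (T : Finset ℕ) : ∃ l : ℕ, l.Prime ∧ l ∉ T ∧ ∀ P, Ov l P → ¬ Hf (dec P) x := by
  have hD' : 4 * (A : ℚ) ^ 3 + 27 * (B : ℚ) ^ 2 ≠ 0 := by exact_mod_cast hD
  obtain ⟨h₀, e₀⟩ := P004M.TE.dbl_surj two_ne_zero hD' x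
  let X := {h : Pt A B // 2 • h = x}
  have cX : Nat.card X = 4 := by
    refine (Nat.card_congr ?_).trans (P004M.TE.card_two (L := Qb) two_ne_zero hD')
    exact ⟨fun h => ⟨h.1 - h₀, by rw [nsmul_sub, h.2, e₀, sub_self]⟩,
      fun h => ⟨h.1 + h₀, by rw [nsmul_add, h.2, e₀, zero_add]⟩,
      fun h => Subtype.ext (sub_add_cancel _ _), fun h => Subtype.ext (add_sub_cancel_right _ _)⟩
  have : Finite X := Nat.finite_of_card_ne_zero (by omega)
  letI : MulAction GQ X :=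
    { smul := fun g h => ⟨ga g h.1, by rw [← map_nsmul, h.2, hx g trivial]⟩
      one_smul := fun h => Subtype.ext (ga_one _)
      mul_smul := fun g g' h => Subtype.ext (ga_mul _ _ _) }
  obtain ⟨g, hg⟩ : ∃ g : GQ, ∀ t : X, g • t ≠ t := by
    by_contra c
    push Not at c
    obtain ⟨t, ht⟩ := fix4 cX c
    exact k ⟨t.1, fun g _ => congrArg Subtype.val (ht g), t.2⟩
  obtain ⟨O, h1, h2, h3⟩ := mem_nhds_iff.1 (Filter.eventually_all.2 fun t : X => ev_ga g t.1)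
  obtain ⟨l, φ, a, b, ⟨P₀, c1, c2, c3⟩, d⟩ := P022K.Cheb.exists_fr h2 h3 T
  refine ⟨l, a, b, fun P o ⟨y, y1, y2⟩ => ?_⟩
  obtain ⟨s, rfl⟩ := P022K.GW.Pl.ov_trans o ⟨a, c1, c2⟩
  have m := (P022K.GW.Pl.dec_iff _ _).1 (P022K.GW.Pl.fr_dec c1 a.ne_zero c3)
  have m' : s⁻¹ * φ * s ∈ dec P := (P022K.GW.Pl.dec_iff _ _).2 (by
    rw [mul_smul, mul_smul, m, inv_smul_smul])
  let t : X := ⟨ga s y, by rw [← map_nsmul, y2, hx s trivial]⟩
  refine hg t (Subtype.ext ((h1 d t).symm.trans ?_))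
  show ga φ (ga s y) = ga s y
  conv_rhs => rw [← y1 _ m', ← ga_mul]
  rw [← ga_mul]
  congr 2
  group

/-- **(c)**: a finite set of primes (outside any given finite set) which detects the doubles -/
theorem cc (hD : 4 * A ^ 3 + 27 * B ^ 2 ≠ 0) (T : Finset ℕ) : ∃ S : Finset ℕ,
    (∀ l ∈ S, l.Prime ∧ l ∉ T) ∧ ∀ x ∈ Fx A B ⊤, (∀ l ∈ S, ∃ P, Ov l P ∧ Hf (dec P) x) → Hf ⊤ x := by
  have w := Wm.weak hD (Γ := ⊤) isOpen_univ
  let R := (nsmulAddMonoidHom (α := Fx A B ⊤) 2).range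
  have : Fintype (Fx A B ⊤ ⧸ R) := Fintype.ofFinite _
  have H (q : {q : Fx A B ⊤ ⧸ R // ¬ Hf ⊤ (q.out : Pt A B)}) := one hD q.1.out.2 q.2 T
  choose l l1 l2 l3 using H
  refine ⟨Finset.univ.image l, fun p hp => ?_, fun x hx h => by_contra fun k => ?_⟩
  · obtain ⟨q, -, rfl⟩ := Finset.mem_image.1 hp
    exact ⟨l1 q, l2 q⟩
  obtain ⟨⟨_, z, rfl⟩, e⟩ := QuotientAddGroup.mk_out_eq_mul R (⟨x, hx⟩ : Fx A B ⊤)
  have e' : ((QuotientAddGroup.mk (s := R) (⟨x, hx⟩ : Fx A B ⊤)).out : Pt A B) = x + 2 • z.1 :=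
    congrArg Subtype.val e
  obtain ⟨P, o, y, y1, y2⟩ := h (l ⟨QuotientAddGroup.mk ⟨x, hx⟩, fun ⟨y, y1, y2⟩ =>
    k ⟨y - z, sub_mem y1 z.2, by rw [nsmul_sub, y2, e', add_sub_cancel_right]⟩⟩)
    (Finset.mem_image_of_mem _ (Finset.mem_univ _))
  exact l3 _ P o ⟨y + z, add_mem y1 fun g _ => z.2 g trivial, by rw [nsmul_add, y2, e']⟩

end Vale.Agent.P014T.Cp.Cc
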