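import Vale.Agent.P014T.Cp.One
import Vale.Agent.P014T.Ki.Two
import Vale.Agent.P014T.Ba.Dv

/-!
# P014T, block CPT: local points modulo two (helper16)
-/

set_option autoImplicit false
set_option linter.all false

open scoped Classical

noncomputable section

namespace Vale.Agent.P014T.Cp

open Matrix NumberField
open Vale.Agent.P022 (Qb GQ)
open Vale.Agent.P022D.W (dec exists_phi phi_mem inP_le_dec)
open Vale.Agent.P022E.GW (Ov)
open Vale.Agent.P004S (W rb)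
open Vale.Agent.P004M.TE (Pt ga rep rho cp_rho)
open P027M.K P004F
open Wm (Fx)
open Ba (Tk Tp)

/-- the doubles -/
abbrev R2 (F : Type) [AddCommGroup F] : AddSubgroup F := (nsmulAddMonoidHom (α := F) 2).range

theorem idx_two (F : Type) [AddCommGroup F] [Finite (Tp F)] :
    Nat.card (Tk F 1) * (R2 F ⊔ Tp F).index = (R2 F).index := by
  rw [← AddSubgroup.relIndex_mul_index (le_sup_left (a := R2 F) (b := Tp F)),
    AddSubgroup.relIndex_sup_left, AddSubgroup.relIndex,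
    show (R2 F).addSubgroupOf (Tp F) = R2 (Tp F) from AddSubgroup.ext fun x =>
      ⟨fun ⟨y, e⟩ => ⟨⟨y, x.2.elim fun k a => ⟨k + 1, by
        rw [pow_succ, mul_smul]; exact (congrArg _ e).trans a⟩⟩, Subtype.ext e⟩,
        fun ⟨y, e⟩ => ⟨y, congrArg Subtype.val e⟩⟩, AddSubgroup.index_range]
  exact congrArg (· * _) (Nat.card_congr ⟨fun x => ⟨⟨x, 1, x.2⟩, Subtype.ext x.2⟩,
    fun x => ⟨x.1.1, congrArg Subtype.val x.2⟩, fun _ => rfl, fun _ => rfl⟩)

theorem idx_map {G F : Type} [AddCommGroup G] [AddCommGroup F] (μ : G →+ F)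
    (s : Function.Surjective μ) (H : AddSubgroup G) :
    H.index * Nat.card (H.addSubgroupOf μ.ker) = Nat.card μ.ker * (H.map μ).index := by
  rw [AddSubgroup.index_map, μ.range_eq_top_of_surjective s, AddSubgroup.index_top, mul_one,
    ← AddSubgroup.relIndex_mul_index (le_sup_left (a := H) (b := μ.ker)),
    AddSubgroup.relIndex_sup_left, ← AddSubgroup.card_mul_index (H.addSubgroupOf μ.ker),
    AddSubgroup.relIndex]
  ring

variable {A B : ℤ} (hD : 4 * (A : ℚ) ^ 3 + 27 * (B : ℚ) ^ 2 ≠ 0) {D : Subgroup GQ} {l : ℕ}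
  {P : Ideal (𝓞 Qb)}
include hD

theorem half_ex {x : Pt A B} (Q : Pt A B → Prop)
    (h : ∀ j, ∃ y ∈ Fx A B D, 2 ^ (j + 1) • y = x ∧ Q (2 ^ j • y)) :
    ∃ x', 2 • x' = x ∧ Q x' ∧ ∀ j, ∃ y ∈ Fx A B D, 2 ^ j • y = x' := by
  choose y h1 h2 h3 using h
  have t : ∀ j, 2 • 2 ^ j • y j = x := fun j => by rw [← mul_smul, ← pow_succ', h2]
  have u : ∀ j, vv hD (uv hD (2 ^ j • y j - y 0)) = 2 ^ j • y j - y 0 := fun j => vv_uv hD (by
    rw [pow_one, nsmul_sub, t, ← h2 0, zero_add, pow_one, sub_self])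
  obtain ⟨v, hv⟩ := Finite.exists_infinite_fiber fun j => uv hD (2 ^ j • y j - y 0)
  have k : ∀ j, ∃ m, j < m ∧ 2 ^ m • y m = vv hD v + y 0 := fun j => by
    obtain ⟨m, a, b⟩ := (Set.infinite_coe_iff.1 hv).exists_gt j
    exact ⟨m, b, by rw [← show _ = v from a, u, sub_add_cancel]⟩
  obtain ⟨m, -, e⟩ := k 0
  refine ⟨_, e ▸ t m, e ▸ h3 m, fun j => ?_⟩
  obtain ⟨m, a, e⟩ := k j
  obtain ⟨d, rfl⟩ := Nat.exists_eq_add_of_le a.le
  exact ⟨_, nsmul_mem (h1 _) (2 ^ d), by rw [← mul_smul, ← pow_add, e]⟩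

/-- the local points of order a power of two have a bounded order -/
theorem ft (o : Ov l P) : ∃ k, ∀ x ∈ Fx A B (dec P), x ∈ Tp (Pt A B) → 2 ^ k • x = 0 := by
  by_contra! c
  obtain ⟨x, x1, x2, x3⟩ := half_ex hD (D := dec P) (x := 0) (· ≠ 0) fun j => by
    obtain ⟨x, a, b, d⟩ := c j
    obtain ⟨i, p, q⟩ := Ba.ex_two (nsmul_mem b (2 ^ j)) d
    exact ⟨_, nsmul_mem a (2 ^ i), by rw [← q, smul_smul, smul_smul, ← pow_add, ← pow_add]; congr 2; ring,
      by rwa [smul_comm]⟩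
  choose nx n1 n2 using fun z : {x : Pt A B // ∀ j, ∃ y ∈ Fx A B (dec P), 2 ^ j • y = x} =>
    (half_ex hD (D := dec P) (x := z.1) (fun _ => True) fun j =>
      (z.2 (j + 1)).imp fun y a => ⟨a.1, a.2, trivial⟩).imp fun _ a => And.intro a.1 a.2.2
  let z : ℕ → {x : Pt A B // ∀ j, ∃ y ∈ Fx A B (dec P), 2 ^ j • y = x} := fun r =>
    Nat.rec ⟨x, x3⟩ (fun _ w => ⟨nx w, n2 w⟩) r
  have := En.no_fix hD o (x := TM.mk (fun r => Nat.casesOn r 0 fun r => (z r).1) rfl fun r => by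
    cases r
    exacts [x1, n1 _]) fun g hg => .inl (TM.ext fun r => by
      rw [cp_rho, TM.cp_mk]
      cases r with
      | zero => exact map_zero _
      | succ r =>
        obtain ⟨y, a, b⟩ := (z r).2 0
        rw [pow_zero, one_smul] at b
        exact (show (z r).1 ∈ Fx A B (dec P) from b ▸ a) g hg)
  exact x2 (congrArg (TM.cp 1) this)

theorem fin_tp (o : Ov l P) : Finite (Tp (Fx A B (dec P))) := by
  obtain ⟨k, hk⟩ := ft hD o
  have := Nat.finite_of_card_ne_zero ((P004M.TE.card_pow hD k).trans_ne (by positivity))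
  exact Finite.of_injective (β := P025H816.tors (Pt A B) (2 ^ k)) (fun x => ⟨x.1.1, hk _ x.1.2
    (x.2.imp fun _ e => congrArg Subtype.val e)⟩) fun _ _ e =>
      Subtype.ext (Subtype.ext (Subtype.mk.inj e))

theorem card_tk (D : Subgroup GQ) :
    Nat.card {v : W // ∀ g ∈ D, rb (rep hD) g *ᵥ v = v} = Nat.card (Tk (Fx A B D) 1) :=
  Nat.card_congr (Equiv.ofBijective (fun v => ⟨⟨vv hD v, fun g m => by rw [ga_vv, v.2 g m]⟩,
    Subtype.ext (vv_two hD _)⟩) ⟨fun _ _ e => Subtype.ext (vv_inj hD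
      (Subtype.mk.inj (Subtype.mk.inj e))), fun x => by
    obtain ⟨v, e⟩ := ex_vv hD (t := x.1.1) (congrArg Subtype.val x.2)
    exact ⟨⟨v, fun g m => vv_inj hD (by rw [← ga_vv, e, x.1.2 g m])⟩, Subtype.ext (Subtype.ext e)⟩⟩)

/-- at two the local points are not generated by the doubles and the torsion -/
theorem ne_top (o : Ov 2 P) : R2 (Fx A B (dec P)) ⊔ Tp _ ≠ ⊤ := fun t => by
  have hZ : 4 * A ^ 3 + 27 * B ^ 2 ≠ 0 := by exact_mod_cast hD
  obtain ⟨φ, hφ⟩ := exists_phi o.1 o.2.1 o.2.2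
  obtain ⟨N, N0, k⟩ := Ix.idx A B hZ P φ o hφ 2 1 two_ne_zero one_ne_zero
  obtain ⟨e, -, e2, e3, -, e4, -⟩ := Qx.fr A B hZ P o.2.1 o.2.2 2 two_ne_zero dvd_rfl φ hφ 1 one_pos
  have k' : ∀ y : Fx A B (dec P), Qx.Fk P 2 (N • y.1) := fun y =>
    k y (fun g hg => y.2 g (inP_le_dec hg)) (y.2 _ (pow_mem (phi_mem o.1 o.2.1 hφ) 1))
  have s : ∀ (m : ℕ) (x : Fx A B (dec P)), ∃ y, ∃ t ∈ Tp (Fx A B (dec P)), x = 2 ^ m • y + t :=
    fun m x => by
      induction m with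
      | zero => exact ⟨x, 0, zero_mem _, by simp⟩
      | succ m ih =>
        obtain ⟨y, u, a, rfl⟩ := ih
        obtain ⟨_, ⟨y, rfl⟩, v, b, rfl⟩ := AddSubgroup.mem_sup.1 (t ▸ AddSubgroup.mem_top y)
        exact ⟨y, _, add_mem (nsmul_mem b (2 ^ m)) a, by
          rw [nsmul_add, pow_succ, mul_smul, add_assoc]; rfl⟩
  obtain ⟨y, u, ⟨j, a⟩, b⟩ := s N ⟨e, Ki.fx_of o hφ e2 (pow_one φ ▸ e3)⟩
  have u0 := Ki.tf hZ o j two_ne_zero dvd_rfl (k' u) (by
    rw [smul_comm, show 2 ^ j • u.1 = 0 from congrArg Subtype.val a, nsmul_zero])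
  have := e4 N (fun _ => N) _ (k' y) (by
    rw [Finset.sum_range_one, pow_zero, P004M.TE.ga_one, natCast_zsmul,
      show e = 2 ^ N • y.1 + u.1 from congrArg Subtype.val b, nsmul_add, u0, add_zero, smul_comm])
    0 one_pos
  exact (Nat.lt_two_pow_self (n := N)).not_ge
    (Nat.le_of_dvd (Nat.pos_of_ne_zero N0) (by exact_mod_cast this))

/-- **the local points modulo two** -/
theorem idx_ge (o : Ov l P) (h : (R2 (Fx A B (dec P))).index ≠ 0) :
    (if l = 2 then 4 else 1) * Nat.card (Tk (Fx A B (dec P)) 1) ^ 2 ≤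
      (R2 (Fx A B (dec P))).index ^ 2 := by
  have := fin_tp hD o
  rw [← idx_two] at h ⊢
  rw [mul_pow, mul_comm]
  refine Nat.mul_le_mul_left _ ?_
  have a := Nat.pos_of_ne_zero (right_ne_zero_of_mul h)
  split_ifs with e
  · have b := AddSubgroup.index_eq_one.not.2 (ne_top hD (e ▸ o))
    exact Nat.pow_le_pow_left (show 2 ≤ _ by omega) 2
  · exact Nat.one_le_pow _ _ a

end Vale.Agent.P014T.Cp
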